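import Vale.Agent.P245N.MainExp

open MeasureTheory
open scoped RealInnerProductSpace

namespace Vale.Agent.Results.P245.LogSobolevStretched

/-- The logarithmic Sobolev constant of a log-concave linearly `a`-subgaussian probability measure on
`ℝ^n` is at most `C exp (B (log n)^(3/4)) a^2`. -/
theorem result : ∃ B C : ℝ, 0 < B ∧ 0 < C ∧ ∀ (n : ℕ) (μ : Measure (EuclideanSpace ℝ (Fin n))),
    IsProbabilityMeasure μ →
    ∀ ρ : EuclideanSpace ℝ (Fin n) → ℝ, (∀ x, 0 ≤ ρ x) →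
    ConcaveOn ℝ {x | 0 < ρ x} (fun x => Real.log (ρ x)) →
    μ = volume.withDensity (fun x => ENNReal.ofReal (ρ x)) →
    ∀ a : ℝ, 0 < a →
    (∀ θ : EuclideanSpace ℝ (Fin n), ‖θ‖ = 1 →
      ∫⁻ x, ENNReal.ofReal (Real.exp (⟪x, θ⟫ ^ 2 / a ^ 2)) ∂μ ≤ 2) →
    ∀ f : EuclideanSpace ℝ (Fin n) → ℝ, ContDiff ℝ 1 f → HasCompactSupport f →
      (∫ x, f x ^ 2 * Real.log (f x ^ 2) ∂μ) -
          (∫ x, f x ^ 2 ∂μ) * Real.log (∫ x, f x ^ 2 ∂μ) ≤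
        C * Real.exp (B * Real.log (n : ℝ) ^ (3 / 4 : ℝ)) * a ^ 2 * ∫ x, ‖fderiv ℝ f x‖ ^ 2 ∂μ :=
  Vale.Agent.P245N.main_stretched

end Vale.Agent.Results.P245.LogSobolevStretched
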